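import Vale.Agent.P124.Retract
import Vale.Agent.P124.NoProj

/-!
# P124: a Lipschitz retract of `ℓ₁` which is neither complemented nor a copy of `ℓ₁`
-/

namespace Vale.Agent.P124

noncomputable section

/-- An enumeration of the tree. -/
def nodeEquiv : Node ≃ ℕ :=
  haveI : Infinite Node :=
    Infinite.of_injective (fun n : ℕ => (⟨n, fun _ => false⟩ : Node)) fun _ _ h => congrArg Sigma.fst h
  (nonempty_equiv_of_countable (α := Node) (β := ℕ)).some

theorem memℓp_comp {α β : Type} (e : α ≃ β) (x : lp (fun _ : β => ℝ) 1) :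
    Memℓp (fun a => x (e a)) 1 :=
  memℓp_gen ((e.summable_iff (f := fun b => ‖x b‖ ^ (1 : ENNReal).toReal)).2
    ((lp.memℓp x).summable (by simp)))

/-- Relabelling of coordinates. -/
def relabel : TreeL1 ≃ₗᵢ[ℝ] lp (fun _ : ℕ => ℝ) 1 where
  toFun x := ⟨fun k => x (nodeEquiv.symm k), memℓp_comp nodeEquiv.symm x⟩
  invFun y := ⟨fun k => y (nodeEquiv k), memℓp_comp nodeEquiv y⟩
  left_inv x := lp.ext (funext fun k => congrArg x (nodeEquiv.symm_apply_apply k))
  right_inv y := lp.ext (funext fun k => congrArg y (nodeEquiv.apply_symm_apply k))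
  map_add' _ _ := rfl
  map_smul' _ _ := rfl
  norm_map' x := by
    rw [lp.norm_eq_tsum_rpow (by simp : 0 < (1 : ENNReal).toReal),
      lp.norm_eq_tsum_rpow (by simp : 0 < (1 : ENNReal).toReal)]
    congr 1
    exact nodeEquiv.symm.tsum_eq fun k => ‖x k‖ ^ (1 : ENNReal).toReal

end

/-- `X` has a closed linear subspace which is a Lipschitz retract of `X`, is the range of no bounded
linear projection, and is not linearly isomorphic to `X`. -/
def HasExoticRetract (X : Type) [NormedAddCommGroup X] [NormedSpace ℝ X] : Prop :=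
  ∃ D : Submodule ℝ X,
    IsClosed (D : Set X) ∧
    (∃ (L : NNReal) (r : X → X), LipschitzWith L r ∧ (∀ x, r x ∈ D) ∧ ∀ x ∈ D, r x = x) ∧
    (¬ ∃ P : X →L[ℝ] X, (∀ x, P x ∈ D) ∧ ∀ x ∈ D, P x = x) ∧
    IsEmpty (D ≃L[ℝ] X)

end Vale.Agent.P124

namespace Vale.Agent.Results.P124.LipschitzRetract

open Vale.Agent.P124

theorem result : HasExoticRetract (lp (fun _ : ℕ => ℝ) 1) := by
  refine ⟨kerU.comap (relabel.symm.toLinearEquiv : lp (fun _ : ℕ => ℝ) 1 →ₗ[ℝ] TreeL1),
    isClosed_kerU.preimage relabel.symm.continuous,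
    ⟨400, fun y => relabel (ret (relabel.symm y)), ?_, fun y => ?_, fun y hy => ?_⟩, ?_, ⟨fun T => ?_⟩⟩
  · have := (relabel.isometry.lipschitz.comp ret_lipschitz).comp relabel.symm.isometry.lipschitz
    simpa [Function.comp_def] using this
  · show relabel.symm (relabel (ret (relabel.symm y))) ∈ kerU
    rw [relabel.symm_apply_apply]
    exact ret_mem _
  · show relabel (ret (relabel.symm y)) = y
    rw [ret_eq_self (show U (relabel.symm y) = 0 from hy), relabel.apply_symm_apply]
  · rintro ⟨P, hP, hid⟩
    refine no_projection (((relabel.symm.toContinuousLinearEquiv :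
      lp (fun _ : ℕ => ℝ) 1 →L[ℝ] TreeL1)).comp (P.comp (relabel.toContinuousLinearEquiv :
      TreeL1 →L[ℝ] lp (fun _ : ℕ => ℝ) 1))) (fun x => hP (relabel x)) fun x hx => ?_
    show relabel.symm (P (relabel x)) = x
    rw [hid (relabel x) (show relabel.symm (relabel x) ∈ kerU by rwa [relabel.symm_apply_apply]),
      relabel.symm_apply_apply]
  · refine no_iso (ContinuousLinearEquiv.trans ?_ T)
    exact
      { toFun := fun x => ⟨relabel x.1, show relabel.symm (relabel x.1) ∈ kerU by
          rw [relabel.symm_apply_apply]; exact x.2⟩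
        invFun := fun y => ⟨relabel.symm y.1, y.2⟩
        left_inv := fun x => Subtype.ext (relabel.symm_apply_apply x.1)
        right_inv := fun y => Subtype.ext (relabel.apply_symm_apply y.1)
        map_add' := fun x y => Subtype.ext (map_add relabel x.1 y.1)
        map_smul' := fun c x => Subtype.ext (relabel.map_smul c x.1)
        continuous_toFun := (relabel.continuous.comp continuous_subtype_val).subtype_mk _
        continuous_invFun := (relabel.symm.continuous.comp continuous_subtype_val).subtype_mk _ }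

end Vale.Agent.Results.P124.LipschitzRetract
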